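import Vale.Agent.P218N.GB.Rank
import Mathlib.Analysis.Complex.Tietze
import Mathlib.Analysis.SpecialFunctions.Complex.Circle
import Mathlib.LinearAlgebra.Dimension.RankNullity
import Mathlib.LinearAlgebra.Dimension.Localization

/-!
# P218N, block A: real lifts of maps to the circle
-/

open Filter Topology Set Metric

noncomputable section

namespace Vale.Agent.P218N.A

open Vale.Agent.P218N.GB

variable {X : Type*} [TopologicalSpace X]

/-- `v` has a continuous real lift on `A` -/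
def Lf (v : X → UnitAddCircle) (A : Set X) : Prop :=
  ∃ w : X → ℝ, ContinuousOn w A ∧ ∀ x ∈ A, (w x : UnitAddCircle) = v x

theorem Lf.mono {v : X → UnitAddCircle} {A B : Set X} (h : Lf v A) (hB : B ⊆ A) : Lf v B :=
  h.imp fun _ k => ⟨k.1.mono hB, fun x hx => k.2 x (hB hx)⟩

theorem coe_sum {ι : Type*} [Fintype ι] (n : ι → ℤ) (a : ι → ℝ) :
    ((∑ j, n j * a j : ℝ) : UnitAddCircle) = ∑ j, n j • (a j : UnitAddCircle) := by
  rw [← QuotientAddGroup.mk'_apply, map_sum]
  exact Finset.sum_congr rfl fun i _ => by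
    rw [← zsmul_eq_mul, map_zsmul, QuotientAddGroup.mk'_apply]

theorem eq_zero_of_lt {a : ℝ} (h : (a : UnitAddCircle) = 0) (h1 : |a| < 1) : a = 0 := by
  obtain ⟨k, rfl⟩ := (AddCircle.coe_eq_zero_iff 1).1 h
  rw [zsmul_eq_mul, mul_one] at h1 ⊢
  exact_mod_cast Int.abs_lt_one_iff.1 (by exact_mod_cast h1)

/-- a lift is propagated from a net of reference points -/
theorem lf_glue {ι C : Type*} [Fintype ι] {v : ι → X → UnitAddCircle} {n : ι → ℤ} {A : Set X}
    {B : C → Set X} {l : C → ι → X → ℝ} (l1 : ∀ c j, ContinuousOn (l c j) (B c))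
    (l2 : ∀ c j, ∀ y ∈ B c, (l c j y : UnitAddCircle) = v j y)
    (l3 : ∀ c j, ∀ y ∈ B c, ∀ y' ∈ B c, |l c j y - l c j y'| < 1 / 2) {q : X → X} {W : X → ℝ}
    (hW : ∀ x ∈ A, (W x : UnitAddCircle) = ∑ j, n j • v j (q x)) {c : X → C}
    (H : ∀ x ∈ A, ∀ᶠ y in 𝓝[A] x, y ∈ B (c x) ∧ q y ∈ B (c x) ∧
      W y - ∑ j, n j * l (c x) j (q y) = W x - ∑ j, n j * l (c x) j (q x)) :
    Lf (fun x => ∑ j, n j • v j x) A := by
  have H0 := fun x hx => (H x hx).self_of_nhdsWithin hx
  refine ⟨fun x => W x - ∑ j, n j * l (c x) j (q x) + ∑ j, n j * l (c x) j x, fun x hx => ?_,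
    fun x hx => ?_⟩
  · have k : ∀ᶠ y in 𝓝[A] x, W y - ∑ j, n j * l (c y) j (q y) + ∑ j, n j * l (c y) j y =
        W x - ∑ j, n j * l (c x) j (q x) + ∑ j, n j * l (c x) j y := by
      filter_upwards [H x hx, self_mem_nhdsWithin] with y ⟨k1, k2, k3⟩ hy
      obtain ⟨k4, k5, -⟩ := H0 y hy
      rw [← k3, sub_add, sub_add, ← Finset.sum_sub_distrib, ← Finset.sum_sub_distrib]
      refine congrArg _ (Finset.sum_congr rfl fun j _ => ?_)
      rw [← mul_sub, ← mul_sub, sub_eq_zero.1 (eq_zero_of_lt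
        (a := l (c y) j (q y) - l (c y) j y - (l (c x) j (q y) - l (c x) j y)) (by
          simp only [AddCircle.coe_sub, l2 _ j _ k1, l2 _ j _ k2, l2 _ j _ k4, l2 _ j _ k5,
            sub_self])
        ((abs_sub _ _).trans_lt (by linarith [l3 _ j _ k5 _ k4, l3 _ j _ k2 _ k1])))]
    refine ContinuousWithinAt.congr_of_eventuallyEq ?_ k rfl
    exact continuousWithinAt_const.add (tendsto_finsetSum _ fun j _ => Tendsto.const_mul _
      ((l1 _ j x (H0 x hx).1).mono_of_mem_nhdsWithin ((H x hx).mono fun _ k => k.1)))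
  · simp only [AddCircle.coe_add, AddCircle.coe_sub, coe_sum, hW x hx, l2 _ _ _ (H0 x hx).1,
      l2 _ _ _ (H0 x hx).2.1, sub_self, zero_add]

/-- if a multiple lifts then the map lifts -/
theorem Lf.of_smul {v : X → UnitAddCircle} {A : Set X} (hv : ContinuousOn v A) {k : ℤ} (hk : k ≠ 0)
    (h : Lf (fun x => k • v x) A) : Lf v A := by
  obtain ⟨W, h1, h2⟩ := h
  have k0 : (k : ℝ) ≠ 0 := by exact_mod_cast hk
  choose s hs using QuotientAddGroup.mk_surjective (s := AddSubgroup.zmultiples (1 : ℝ))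
  let d : X → UnitAddCircle := fun x => v x - (W x / k : ℝ)
  have dc : ContinuousOn d A :=
    hv.sub ((AddCircle.continuous_mk' 1).comp_continuousOn (h1.div_const _))
  have fin := AddCircle.finite_torsion_of_isSMulRegular_int (1 : ℝ) k
    (.of_right_eq_zero_of_smul fun _ => by simp [hk])
  have dt : ∀ x ∈ A, k • d x = 0 := fun x hx => by
    rw [smul_sub, ← show _ = k • v x from h2 x hx, ← AddCircle.coe_zsmul, zsmul_eq_mul, mul_div_cancel₀ _ k0, sub_self]
  refine ⟨fun x => W x / k + s (d x), fun x hx => ?_, fun x hx => ?_⟩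
  · refine (((h1 x hx).div_const k).add
      (continuousWithinAt_const (b := s (d x)))).congr_of_eventuallyEq ?_ rfl
    filter_upwards [(dc x hx).tendsto.eventually_mem
      ((fin.subset (sdiff_subset (t := {d x}))).isClosed.isOpen_compl.mem_nhds fun k => k.2 rfl),
      self_mem_nhdsWithin] with y k1 k2
    rw [show d y = d x from not_not.1 fun k3 => k1 ⟨dt y k2, k3⟩]
    rfl
  · rw [AddCircle.coe_add, hs, add_sub_cancel]

/-- lifts on an exhaustion give a global lift -/
theorem lf_exhaust [LocallyConnectedSpace X] {v : X → UnitAddCircle} {A : ℕ → Set X}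
    (hA : ∀ n, IsOpen (A n)) (hm : Monotone A) (hc : ∀ x, ∃ n, x ∈ A n) (h : ∀ n, Lf v (A n)) :
    Lf v univ := by
  choose W h1 h2 using h
  choose s hs using QuotientAddGroup.mk_surjective (s := AddSubgroup.zmultiples (1 : ℝ))
  have key : ∀ p, ∀ x ∈ connectedComponent p, ∃ n, x ∈ connectedComponentIn (A n) p := by
    intro p x hx
    obtain ⟨n₀, h0⟩ := hc p
    refine mem_iUnion.1 (IsClopen.connectedComponent_subset (s := ⋃ n, connectedComponentIn (A n) p)
      ⟨isClosed_of_closure_subset fun y hy => ?_,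
        isOpen_iUnion fun n => (hA n).connectedComponentIn⟩ (mem_iUnion.2 ⟨n₀, mem_connectedComponentIn h0⟩) hx)
    obtain ⟨m, hy'⟩ := hc y
    obtain ⟨z, z1, z2⟩ := mem_closure_iff.1 hy _ ((hA m).connectedComponentIn (x := y))
      (mem_connectedComponentIn hy')
    obtain ⟨n, z2⟩ := mem_iUnion.1 z2
    refine mem_iUnion.2 ⟨max m n, ?_⟩
    rw [connectedComponentIn_eq (connectedComponentIn_mono p (hm (le_max_right m n)) z2),
      ← connectedComponentIn_eq (connectedComponentIn_mono y (hm (le_max_left m n)) z1)]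
    exact mem_connectedComponentIn (hm (le_max_left m n) hy')
  let β : X → X := fun x => Quotient.out (ConnectedComponents.mk x)
  have b1 : ∀ x, x ∈ connectedComponent (β x) := fun x =>
    ConnectedComponents.coe_eq_coe'.1 (Quotient.out_eq (ConnectedComponents.mk x)).symm
  choose N hN using fun x => key (β x) x (b1 x)
  have ind : ∀ p x n m, n ≤ m → x ∈ connectedComponentIn (A n) p →
      W n x - W n p = W m x - W m p := fun p x n m r hx => by
    have s1 := connectedComponentIn_subset (A n) p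
    have := int_const isPreconnected_connectedComponentIn
      (((h1 n).mono s1).sub ((h1 m).mono (s1.trans (hm r)))) (fun y hy => by
        rw [Pi.sub_apply, AddCircle.coe_sub, h2 n y (s1 hy), h2 m y (hm r (s1 hy)), sub_self]) hx
      (mem_connectedComponentIn (connectedComponentIn_nonempty_iff.1 ⟨x, hx⟩))
    simp only [Pi.sub_apply] at this
    linarith
  refine ⟨fun x => W (N x) x - W (N x) (β x) + s (v (β x)), fun x _ => ?_, fun x _ => ?_⟩
  · have o := ((hA (N x)).connectedComponentIn (x := β x)).mem_nhds (hN x)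
    refine ((((h1 _).continuousAt ((hA _).mem_nhds (connectedComponentIn_subset _ _ (hN x)))).sub
      (continuousAt_const (y := W (N x) (β x)))).add
      (continuousAt_const (y := s (v (β x))))).continuousWithinAt.congr_of_eventuallyEq ?_ rfl
    filter_upwards [nhdsWithin_le_nhds o] with y hy
    have e : β y = β x := congrArg Quotient.out ((ConnectedComponents.coe_eq_coe'.2
      (isPreconnected_connectedComponentIn.subset_connectedComponent (mem_connectedComponentIn
        (connectedComponentIn_nonempty_iff.1 ⟨y, hy⟩)) hy)).trans (Quotient.out_eq _))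
    simp only [Pi.add_apply, Pi.sub_apply, e]
    rw [ind _ _ _ _ (le_max_left _ (N x)) (e ▸ hN y), ind _ _ _ _ (le_max_right (N y) _) hy]
  · rw [AddCircle.coe_add, AddCircle.coe_sub, hs, h2 _ _ (connectedComponentIn_subset _ _ (hN x)),
      h2 _ _ (connectedComponentIn_nonempty_iff.1 ⟨x, hN x⟩), sub_add_cancel]

/-- decreasing nonzero saturated lattices have a common nonzero point -/
theorem exists_common {ι : Type*} [Fintype ι] {L : ℕ → Submodule ℤ (ι → ℤ)} (hm : Antitone L)
    (h0 : ∀ R, ∃ n ∈ L R, n ≠ 0) (hs : ∀ R (k : ℤ) n, k ≠ 0 → k • n ∈ L R → n ∈ L R) :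
    ∃ n, n ≠ 0 ∧ ∀ R, n ∈ L R := by
  obtain ⟨R₀, -, hR⟩ := exists_minimalFor_of_wellFoundedLT (fun _ : ℕ => True)
    (fun R => Module.finrank ℤ (L R)) ⟨0, trivial⟩
  obtain ⟨n, n1, n2⟩ := h0 R₀
  refine ⟨n, n2, fun R => hm (le_max_left R R₀) ?_⟩
  have le := hm (le_max_right R R₀)
  have e1 := ((L (max R R₀)).comap (L R₀).subtype).finrank_quotient_add_finrank
  rw [(Submodule.comapSubtypeEquivOfLe le).finrank_eq] at e1
  have e2 : Module.finrank ℤ (L R₀) ≤ Module.finrank ℤ (L (max R R₀)) :=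
    hR trivial (Submodule.finrank_mono le)
  obtain ⟨k, k1, k2⟩ := Module.finrank_eq_zero_iff.1 (show Module.finrank ℤ
    (L R₀ ⧸ (L (max R R₀)).comap (L R₀).subtype) = 0 by omega) (Submodule.Quotient.mk ⟨n, n1⟩)
  rw [← Submodule.Quotient.mk_smul, Submodule.Quotient.mk_eq_zero] at k2
  exact hs _ k n k1 k2

theorem rankC_of_exhaust [LocallyConnectedSpace X] {A : ℕ → Set X} {b : ℕ}
    (hA : ∀ n, IsOpen (A n)) (hm : Monotone A) (hc : ∀ x, ∃ n, x ∈ A n)
    (h : ∀ (ι : Type) [Fintype ι] (u : ι → C(X, UnitAddCircle)), (∀ i, HasCompactSupport (u i)) →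
      b < Fintype.card ι → ∀ R, ∃ n : ι → ℤ, n ≠ 0 ∧ Lf (fun x => ∑ j, n j • u j x) (A R)) :
    RankC X b := fun ι _ u hu hb => by
  let L : ℕ → Submodule ℤ (ι → ℤ) := fun R =>
    { carrier := {n | Lf (fun x => ∑ j, n j • u j x) (A R)}
      add_mem' := fun ⟨w, h1, h2⟩ ⟨w', h1', h2'⟩ => ⟨w + w', h1.add h1', fun x hx => by
        simp [h2 x hx, h2' x hx, add_smul, Finset.sum_add_distrib]⟩
      zero_mem' := ⟨0, continuousOn_const, fun x _ => by simp⟩
      smul_mem' := fun k n ⟨w, h1, h2⟩ => ⟨k • w, h1.const_smul k, fun x hx => by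
        rw [Pi.smul_apply, AddCircle.coe_zsmul, h2 x hx]
        simp [Finset.smul_sum, mul_smul]⟩ }
  obtain ⟨n, n1, n2⟩ := exists_common (L := L) (fun R R' r n hn => Lf.mono hn (hm r))
    (fun R => (h ι u hu hb R).imp fun n k => ⟨k.2, k.1⟩) fun R k n hk hn =>
      Lf.of_smul (by fun_prop) hk (by
        simpa only [Finset.smul_sum, Pi.smul_apply, smul_eq_mul, mul_smul] using
          show Lf (fun x => ∑ j, (k • n) j • u j x) (A R) from hn)
  obtain ⟨w, h1, h2⟩ := lf_exhaust hA hm hc n2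
  exact ⟨n, n1, ⟨w, continuousOn_univ.1 h1⟩, fun x => h2 x trivial⟩

/-- local lifts with small oscillation -/
theorem local_lift {v : X → UnitAddCircle} {x : X} (h : ∀ᶠ y in 𝓝 x, ContinuousAt v y) :
    ∃ l : X → ℝ, ∀ᶠ y in 𝓝 x,
      ContinuousAt l y ∧ (l y : UnitAddCircle) = v y ∧ |l y - l x| < 1 / 4 := by
  obtain ⟨a, ha⟩ := QuotientAddGroup.mk_surjective (v x)
  obtain ⟨e, e1, e2⟩ := (AddCircle.isCoveringMap_coe (1 : ℝ)).isLocalHomeomorph a
  have k : ∀ᶠ y in 𝓝 x,
      ContinuousAt (e.symm ∘ v) y ∧ ((e.symm (v y) : ℝ) : UnitAddCircle) = v y := by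
    filter_upwards [h, h.self_of_nhds.eventually_mem (e.open_target.mem_nhds
      (ha ▸ congrFun e2 a ▸ e.map_source e1))] with y k1 k2
    exact ⟨(e.continuousAt_symm k2).comp k1, (congrFun e2 _).trans (e.right_inv k2)⟩
  refine ⟨e.symm ∘ v, ?_⟩
  filter_upwards [k, Metric.tendsto_nhds.1 k.self_of_nhds.1 (1 / 4) (by norm_num)] with y k1 k2
    using ⟨k1.1, k1.2, k2⟩

/-- a compactly supported map to the circle extends to a neighbourhood -/
theorem circle_extend {E : Type*} [NormedAddCommGroup E] {S : Set E} (hS : IsClosed S)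
    (u : C(S, UnitAddCircle)) (hu : HasCompactSupport u) :
    ∃ (v : E → UnitAddCircle) (R : ℝ), (∀ x : S, v x = u x) ∧ (∀ x, R ≤ ‖x‖ → v x = 0) ∧
      ∀ x ∈ S, ∀ᶠ y in 𝓝 x, ContinuousAt v y := by
  let e := AddCircle.homeomorphCircle (T := 1) one_ne_zero
  have e0 : e 0 = 1 := by simp [e, AddCircle.homeomorphCircle_apply]
  obtain ⟨F, hF⟩ := ContinuousMap.exists_restrict_eq hS
    (⟨fun x => (e (u x) : ℂ), by fun_prop⟩ : C(S, ℂ))
  obtain ⟨R, hR⟩ := (hu.isCompact.image continuous_subtype_val).isBounded.exists_norm_le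
  let G : E → ℂ := fun x => 1 + (max 0 (min 1 (R + 1 - ‖x‖)) : ℝ) * (F x - 1)
  have Gc : Continuous G := by fun_prop
  have GS : ∀ x : S, G x = e (u x) := fun x => by
    have k : F x = e (u x) := DFunLike.congr_fun hF x
    by_cases r : x ∈ tsupport u
    · have := hR _ (mem_image_of_mem _ r)
      simp [G, min_eq_left (show (1 : ℝ) ≤ R + 1 - ‖(x : E)‖ by linarith), k]
    · simp [G, k, image_eq_zero_of_notMem_tsupport r, e0]
  refine ⟨fun x => e.symm (Circle.exp (G x).arg), R + 1, fun x => ?_, fun x hx => ?_,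
    fun x hx => ?_⟩
  · simp only [GS, Circle.exp_arg, e.symm_apply_apply]
  · simp [G, max_eq_left (min_le_of_right_le (sub_nonpos.2 hx) : min 1 (R + 1 - ‖x‖) ≤ 0), ← e0]
  · filter_upwards [Gc.continuousAt.eventually_ne
      (show G x ≠ 0 from GS ⟨x, hx⟩ ▸ Circle.coe_ne_zero _)] with y hy
    have k : ContinuousAt (fun z : ℂ => Circle.exp z.arg) (G y) :=
      AddCircle.homeomorphCircle'.continuous.continuousAt.comp (Complex.continuousAt_arg_coe_angle hy)
    exact e.symm.continuous.continuousAt.comp (k.comp Gc.continuousAt)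

end Vale.Agent.P218N.A
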