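import Vale.Agent.P218N.B.Sheet

/-!
# P218N, block A: normal charts, and paths in the top sheet
-/

open MeasureTheory Set Filter Topology Metric
open scoped ENNReal NNReal RealInnerProductSpace ContDiff

namespace Vale.Agent.P218N.A

open Vale.Agent.P218.H313 Vale.Agent.P218N.H Vale.Agent.P218N.B

open Classical in
/-- the top points over the disc with holes are joined inside `M` -/
theorem top_join {L₀ : ℝ} (hL₀ : 0 < L₀) : ∃ c₀ : ℝ, 0 < c₀ ∧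
    ∀ (M : Set E3) (Φ : E2 × ℝ → E3) (ρ h L₁ b : ℝ) (s₀ : Finset (E3 × ℝ)),
    Surf M → IsClosed M → ContDiff ℝ 1 Φ → 0 < ρ → 0 ≤ L₁ → 0 < b →
    (∀ c ∈ s₀, 0 < c.2) → ∑ c ∈ s₀, √c.2 ≤ c₀ →
    (∀ z ∈ ball (0 : E2) (2 * ρ), ∀ z' ∈ ball (0 : E2) (2 * ρ), ∀ t t', |t| ≤ h → |t'| ≤ h →
      ‖z - z'‖ ≤ L₀ * ‖Φ (z, t) - Φ (z', t')‖) →
    (∀ z ∈ ball (0 : E2) (2 * ρ), ∀ t, |t| ≤ h → ∀ v, ‖fderiv ℝ Φ (z, t) (v, 0)‖ ≤ L₁ * ‖v‖) →
    (∀ z ∈ ball (0 : E2) (2 * ρ), ∀ t, |t| ≤ h → Φ (z, t) ∈ M →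
      Φ (z, t) ∉ ⋃ c ∈ s₀, ball c.1 c.2 →
      |t| < h ∧ b ≤ |⟪nu M (Φ (z, t)), fderiv ℝ Φ (z, t) (0, 1)⟫|) →
    ∃ z : E3 × ℝ → E2, ∀ x ∈ ball (0 : E2) ρ, ∀ y ∈ ball (0 : E2) ρ,
      (∀ c ∈ s₀, √(2 * L₀ * c.2) ≤ ‖x - z c‖) → (∀ c ∈ s₀, √(2 * L₀ * c.2) ≤ ‖y - z c‖) →
      ∀ t t', IsGreatest {t | |t| ≤ h ∧ Φ (x, t) ∈ M} t →
        IsGreatest {t | |t| ≤ h ∧ Φ (y, t) ∈ M} t' → ∃ P, IsPreconnected P ∧
          P ⊆ M ∩ Φ '' (ball 0 (2 * ρ) ×ˢ Icc (-h) h) ∧ Φ (x, t) ∈ P ∧ Φ (y, t') ∈ P := by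
  obtain ⟨c₀, hc₀, sh⟩ := shadowStmt
  have sq := Real.sqrt_pos.2 (show 0 < 2 * L₀ by positivity)
  refine ⟨c₀ / √(2 * L₀), by positivity, ?_⟩
  intro M Φ ρ h L₁ b s₀ hM hc hΦ hρ hL₁ hb p1 p2 q1 q2 q3
  choose! z z1 z2 using fun (c : E3 × ℝ)
    (k : ∃ z ∈ ball (0 : E2) (2 * ρ), ∃ t, |t| ≤ h ∧ Φ (z, t) ∈ ball c.1 c.2) => k
  let O : Set E2 := ball 0 (2 * ρ) \ ⋃ c ∈ s₀, closedBall (z c) (2 * L₀ * c.2)
  have good : ∀ y ∈ O, ∀ t, |t| ≤ h → Φ (y, t) ∉ ⋃ c ∈ s₀, ball c.1 c.2 := fun y hy t ht k => by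
    obtain ⟨c, k1, k2⟩ := mem_iUnion₂.1 k
    obtain ⟨t', k4, k5⟩ := z2 c ⟨y, hy.1, t, ht, k2⟩
    refine hy.2 (mem_biUnion k1 (mem_closedBall_iff_norm.2
      ((q1 _ hy.1 _ (z1 c ⟨y, hy.1, t, ht, k2⟩) t t' ht k4).trans ?_)))
    have := dist_triangle_right (Φ (y, t)) (Φ (z c, t')) c.1
    rw [dist_eq_norm] at this
    nlinarith [mem_ball.1 k2, mem_ball.1 k5]
  have oO : IsOpen O := isOpen_ball.sdiff (isClosed_biUnion_finset fun _ _ => isClosed_closedBall)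
  obtain ⟨N, τ, H⟩ := orderStmt {q | |q.2| ≤ h ∧ Φ q ∈ M} O h oO
    (fun q hq _ => ((isClosed_le continuous_snd.abs continuous_const).inter
      (hc.preimage hΦ.continuous)).closure_subset hq) (fun q hq _ => hq.1) fun q hq ho => by
    obtain ⟨k1, k2⟩ := q3 q.1 ho.1 q.2 hq.1 hq.2 (good _ ho _ hq.1)
    obtain ⟨g, g1, -, g3⟩ := loc_graph (n := 1) hM le_rfl hΦ.contDiffAt hq.2 hb hL₁
      (q2 _ ho.1 _ hq.1) k2
    refine ⟨g, g1.continuousAt, ?_⟩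
    filter_upwards [g3, (continuous_snd.abs.continuousAt (x := q)).eventually_lt_const k1]
      with q' k3 k4 using (and_iff_right k4.le).trans k3
  have top : ∀ y ∈ O, ∀ t, IsGreatest {t | |t| ≤ h ∧ Φ (y, t) ∈ M} t →
      N y - 1 < N y ∧ t = τ (N y - 1) y := fun y hy t ht => by
    obtain ⟨l, k1, rfl⟩ := ((H y hy).1 t).1 ht.1
    have k2 : N y - 1 < N y := by omega
    refine ⟨k2, (eq_or_lt_of_le (show l ≤ N y - 1 by omega)).elim (fun e => by rw [e]) fun r => ?_⟩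
    exact (((H y hy).2.1 _ _ r k2).not_ge (ht.2 (((H y hy).1 _).2 ⟨_, k2, rfl⟩))).elim
  refine ⟨z, fun x n1 y n2 hx hy t t' ht ht' => ?_⟩
  obtain ⟨u, u1, u2⟩ := sh (s₀.image fun c => (z c, 2 * L₀ * c.2))
    (Finset.forall_mem_image.2 fun c k => mul_pos (by positivity) (p1 c k)) (by
      refine (Finset.sum_image_le_of_nonneg (f := fun c : E2 × ℝ => √c.2)
        fun _ _ => Real.sqrt_nonneg _).trans ?_
      simp only [Real.sqrt_mul (show 0 ≤ 2 * L₀ by positivity), ← Finset.mul_sum]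
      rwa [le_div_iff₀' sq] at p2) x y (Finset.forall_mem_image.2 hx) (Finset.forall_mem_image.2 hy)
  have m4 : u ∈ ball (0 : E2) (2 * ρ) := mem_ball_zero_iff.2 (by
    linarith [norm_le_norm_add_norm_sub' u (midpoint ℝ x y), norm_sub_le x y,
      mem_ball_zero_iff.1 ((convex_ball (0 : E2) ρ).midpoint_mem n1 n2), mem_ball_zero_iff.1 n1,
      mem_ball_zero_iff.1 n2])
  have m5 : ball (0 : E2) ρ ⊆ ball 0 (2 * ρ) := ball_subset_ball (by linarith)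
  have sub : segment ℝ x u ∪ segment ℝ u y ⊆ O := fun v hv => ⟨hv.elim
    (fun k => (convex_ball _ _).segment_subset (m5 n1) m4 k)
    (fun k => (convex_ball _ _).segment_subset m4 (m5 n2) k), fun k => by
      obtain ⟨c, k1, k2⟩ := mem_iUnion₂.1 k
      exact (u2 v hv _ (Finset.mem_image_of_mem _ k1)).not_ge (mem_closedBall_iff_norm.1 k2)⟩
  have pc : IsPreconnected (segment ℝ x u ∪ segment ℝ u y) :=
    ((convex_segment x u).isPreconnected).union u (right_mem_segment ℝ x u)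
      (left_mem_segment ℝ u y) (convex_segment u y).isPreconnected
  have hx' : x ∈ segment ℝ x u ∪ segment ℝ u y := Or.inl (left_mem_segment ℝ x u)
  have hy' : y ∈ segment ℝ x u ∪ segment ℝ u y := Or.inr (right_mem_segment ℝ u y)
  have e : ∀ v ∈ segment ℝ x u ∪ segment ℝ u y, N v = N x := fun v hv => pc.constant
    (fun v hv => (continuousAt_const.congr
      (EventuallyEq.symm (H v (sub hv)).2.2.1)).continuousWithinAt) hv hx'
  obtain ⟨a1, a2⟩ := top x (sub hx') t ht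
  have a3 := (top y (sub hy') t' ht').2
  have a4 : ∀ v ∈ segment ℝ x u ∪ segment ℝ u y, N x - 1 < N v := fun v hv => by rwa [e v hv]
  have a5 : ContinuousOn (fun v => (v, τ (N x - 1) v)) (segment ℝ x u ∪ segment ℝ u y) :=
    continuousOn_id.prodMk fun v hv => ((H v (sub hv)).2.2.2 _ (a4 v hv)).continuousWithinAt
  refine ⟨_, pc.image _ (hΦ.continuous.comp_continuousOn a5), ?_, ⟨x, hx', by rw [a2]; rfl⟩,
    ⟨y, hy', by rw [a3, e y hy']; rfl⟩⟩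
  rintro _ ⟨v, hv, rfl⟩
  have k := ((H v (sub hv)).1 (τ (N x - 1) v)).2 ⟨_, a4 v hv, rfl⟩
  exact ⟨k.2, (v, τ (N x - 1) v), ⟨(sub hv).1, abs_le.1 k.1⟩, rfl⟩

/-- normal coordinates -/
noncomputable def nm (w : E3 → ℝ) (χ : E2 → E3) (q : E2 × ℝ) : E3 :=
  χ q.1 + q.2 • grad w (χ q.1)

lemma hasFDerivAt_nm {w : E3 → ℝ} (hw : ContDiff ℝ ∞ w) {χ : E2 → E3} (hχ : ContDiff ℝ ∞ χ)
    (q : E2 × ℝ) (v : E2) (s : ℝ) : fderiv ℝ (nm w χ) q (v, s) = fderiv ℝ χ q.1 v +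
      (q.2 • fderiv ℝ (grad w ∘ χ) q.1 v + s • grad w (χ q.1)) := by
  have h1 := (hχ.differentiable (by simp) q.1).hasFDerivAt.comp q hasFDerivAt_fst
  have h2 := (((contDiff_grad_top hw).comp hχ).differentiable (by simp) q.1).hasFDerivAt.comp q
    hasFDerivAt_fst
  have h3 : HasFDerivAt (nm w χ) _ q := h1.add (hasFDerivAt_snd.smul h2)
  simp [h3.fderiv]

/-- a normal chart of `S` at `c` with image in `O` -/
structure NCh (S : Set E3) (w : E3 → ℝ) (c : E3) (O : Set E3) (χ : E2 → E3) (ρ h L : ℝ) :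
    Prop where
  ρ_pos : 0 < ρ
  h_pos : 0 < h
  L_pos : 0 < L
  smooth : ContDiff ℝ ∞ χ
  zero : χ 0 = c
  mem : ∀ z ∈ ball (0 : E2) (2 * ρ), χ z ∈ S
  anti : ∀ z ∈ ball (0 : E2) (2 * ρ), ∀ z' ∈ ball (0 : E2) (2 * ρ), ∀ t t', |t| ≤ h → |t'| ≤ h →
    ‖z - z'‖ ≤ L * ‖nm w χ (z, t) - nm w χ (z', t')‖
  lip : ∀ z ∈ ball (0 : E2) (2 * ρ), ∀ z' ∈ ball (0 : E2) (2 * ρ), ∀ t t', |t| ≤ h → |t'| ≤ h →
    ‖nm w χ (z, t) - nm w χ (z', t')‖ ≤ L * (‖z - z'‖ + |t - t'|)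
  der : ∀ z ∈ ball (0 : E2) (2 * ρ), ∀ t, |t| ≤ h → ∀ v,
    ‖fderiv ℝ (nm w χ) (z, t) (v, 0)‖ ≤ L * ‖v‖
  sub : ∀ z ∈ ball (0 : E2) (2 * ρ), ∀ t, |t| ≤ h → nm w χ (z, t) ∈ O
  near : ∀ z ∈ ball (0 : E2) (2 * ρ), ∀ t, |t| ≤ h →
    ‖grad w (nm w χ (z, t)) - grad w (χ z)‖ ≤ 1 / 8
  nhds : map (nm w χ) (𝓝 0) = 𝓝 c

lemma contDiff_nm {w : E3 → ℝ} (hw : ContDiff ℝ ∞ w) {χ : E2 → E3} (hχ : ContDiff ℝ ∞ χ) :
    ContDiff ℝ ∞ (nm w χ) :=
  (hχ.comp contDiff_fst).add (contDiff_snd.smul (((contDiff_grad_top hw).comp hχ).comp contDiff_fst))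

theorem exists_nch {S : Set E3} {w : E3 → ℝ} (hw : ContDiff ℝ ∞ w) (h0 : ∀ x, x ∈ S ↔ w x = 0)
    {c : E3} (hc : c ∈ S) (h1 : ‖grad w c‖ = 1) {O : Set E3} (hO : O ∈ 𝓝 c) :
    ∃ χ ρ h L, NCh S w c O χ ρ h L := by
  obtain ⟨f, hf⟩ := exists_frame finrank_E3 h1
  have D : LocDef S {x | grad w x ≠ 0} w :=
    ⟨isOpen_ne_fun (contDiff_grad_top hw).continuous continuous_const, hw, fun _ k => k,
      fun x _ => h0 x⟩
  obtain ⟨u, r, h, C, u0, -⟩ := D.exists_gchart (fun k => by simp [k] at h1) hc f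
    (by rw [← hf, f.inner_nn]; simp) univ_mem
  have hχ := f.contDiff_gr c C.smooth
  have z0 : f.gr c u 0 = c := by simp [Frame.gr, u0]
  have hΦ := contDiff_nm hw hχ
  have d0 : ∀ v s, fderiv ℝ (nm w (f.gr c u)) 0 (v, s) = f.ι v + (⟪grad u 0, v⟫ + s) • f.n :=
    fun v s => by
      rw [hasFDerivAt_nm hw hχ, Prod.fst_zero, Prod.snd_zero, (f.hasFDerivAt_gr c (C.diff 0)).fderiv,
        z0, ← hf, f.dgr_apply, zero_smul, zero_add, add_smul, add_assoc]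
  let e := ContinuousLinearEquiv.ofBijective (fderiv ℝ (nm w (f.gr c u)) 0)
    (LinearMap.ker_eq_bot'.2 fun q hq => by
      have k : f.ι q.1 + (⟪grad u 0, q.1⟫ + q.2) • f.n = 0 := (d0 q.1 q.2).symm.trans hq
      have k1 := congrArg f.π k
      rw [map_add, map_smul, f.π_ι, f.π_n, smul_zero, add_zero, map_zero] at k1
      have k2 := congrArg (fun v => ‖v‖) k
      simp only [k1, map_zero, inner_zero_right, zero_add, norm_smul, f.norm_n, mul_one,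
        norm_zero, norm_eq_zero] at k2
      exact Prod.ext k1 k2)
    (LinearMap.range_eq_top.2 fun x => ⟨(f.π x, ⟪f.n, x⟫ - ⟪grad u 0, f.π x⟫),
      (d0 _ _).trans (by rw [add_sub_cancel, ← f.decomp])⟩)
  have hs : HasStrictFDerivAt (nm w (f.gr c u)) (e : E2 × ℝ →L[ℝ] E3) 0 :=
    hΦ.contDiffAt.hasStrictFDerivAt (by simp)
  have Φ0 : nm w (f.gr c u) 0 = c := by simp [nm, z0]
  obtain ⟨s, s1, s2, s3⟩ := hs.approximates_deriv_on_open_nhds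
  obtain ⟨K, hK⟩ : ∃ K, AntilipschitzWith K (s.domRestrict (nm w (f.gr c u))) :=
    ⟨_, s3.antilipschitz (e.subsingleton_or_nnnorm_symm_pos.imp id fun k =>
      NNReal.half_lt_self (inv_pos.2 k).ne')⟩
  obtain ⟨K', hK'⟩ : ∃ K, LipschitzWith K (s.domRestrict (nm w (f.gr c u))) := ⟨_, s3.lipschitz⟩
  have e1 := ((hΦ.continuous_fderiv (by simp)).norm.continuousAt (x := 0)).eventually_lt_const
    (lt_add_one _)
  have e2 := hΦ.continuous.continuousAt.eventually_mem 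
    (show O ∈ 𝓝 (nm w (f.gr c u) 0) by rwa [Φ0])
  have e3 := ((((contDiff_grad_top hw).comp hΦ).continuous.sub
    (((contDiff_grad_top hw).comp hχ).continuous.comp continuous_fst)).norm.continuousAt
    (x := 0)).eventually_lt_const (show _ < (1 / 8 : ℝ) by simp [Φ0, z0])
  obtain ⟨ε, ε0, hε⟩ := Metric.eventually_nhds_iff_ball.1 (e1.and (e2.and (e3.and
    (((continuous_fst.norm.continuousAt (x := (0 : E2 × ℝ))).eventually_lt_const
      (show _ < r by simpa using C.r_pos)).and (s2.eventually_mem s1)))))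
  have m : ∀ z ∈ ball (0 : E2) (2 * (ε / 2)), ∀ t, |t| ≤ ε / 2 → (z, t) ∈ ball (0 : E2 × ℝ) ε :=
    fun z hz t ht => mem_ball_zero_iff.2 (max_lt (by linarith [mem_ball_zero_iff.1 hz])
      (ht.trans_lt (half_lt_self ε0)))
  have n0 := norm_nonneg (fderiv ℝ (nm w (f.gr c u)) 0)
  refine ⟨f.gr c u, ε / 2, ε / 2, K + K' + (‖fderiv ℝ (nm w (f.gr c u)) 0‖ + 1), half_pos ε0,
    half_pos ε0, by positivity, hχ, z0,
    fun z hz => C.gr_mem (hε _ (m z hz 0 (abs_zero.trans_le (half_pos ε0).le))).2.2.2.1,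
    fun z hz z' hz' t t' ht ht' => ?_, fun z hz z' hz' t t' ht ht' => ?_, fun z hz t ht v => ?_,
    fun z hz t ht => (hε _ (m z hz t ht)).2.1, fun z hz t ht => (hε _ (m z hz t ht)).2.2.1.le,
    hs.map_nhds_eq_of_equiv.trans (by rw [Φ0])⟩
  · have k := hK.le_mul_dist ⟨_, (hε _ (m z hz t ht)).2.2.2.2⟩ ⟨_, (hε _ (m z' hz' t' ht')).2.2.2.2⟩
    rw [Subtype.dist_eq, dist_eq_norm, dist_eq_norm] at k
    refine ((norm_fst_le ((z, t) - (z', t'))).trans k).trans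
      (mul_le_mul_of_nonneg_right ?_ (norm_nonneg _))
    linarith [K'.2]
  · have k := hK'.dist_le_mul ⟨_, (hε _ (m z hz t ht)).2.2.2.2⟩ ⟨_, (hε _ (m z' hz' t' ht')).2.2.2.2⟩
    rw [Subtype.dist_eq, dist_eq_norm, dist_eq_norm] at k
    exact k.trans (mul_le_mul (by linarith [K.2]) (max_le_add_of_nonneg (norm_nonneg _)
      (norm_nonneg _)) (norm_nonneg _) (by positivity))
  · refine (ContinuousLinearMap.le_opNorm _ _).trans (mul_le_mul ?_ (by simp) (norm_nonneg _)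
      (by positivity))
    linarith [K.2, K'.2, (hε _ (m z hz t ht)).1]

namespace NCh

variable {S : Set E3} {w : E3 → ℝ} {c : E3} {O : Set E3} {χ : E2 → E3} {ρ h L : ℝ}

lemma mono (C : NCh S w c O χ ρ h L) {h' : ℝ} (h1 : 0 < h') (h2 : h' ≤ h) : NCh S w c O χ ρ h' L :=
  ⟨C.ρ_pos, h1, C.L_pos, C.smooth, C.zero, C.mem,
    fun z hz z' hz' t t' k k' => C.anti z hz z' hz' t t' (k.trans h2) (k'.trans h2),
    fun z hz z' hz' t t' k k' => C.lip z hz z' hz' t t' (k.trans h2) (k'.trans h2),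
    fun z hz t k => C.der z hz t (k.trans h2), fun z hz t k => C.sub z hz t (k.trans h2),
    fun z hz t k => C.near z hz t (k.trans h2), C.nhds⟩

/-- `w` is comparable to the height -/
lemma height (C : NCh S w c O χ ρ h L) (hw : ContDiff ℝ ∞ w) (h0 : ∀ x, x ∈ S ↔ w x = 0)
    (h1 : ∀ x ∈ S, ‖grad w x‖ = 1) {z : E2} (hz : z ∈ ball (0 : E2) (2 * ρ)) {t : ℝ}
    (ht : |t| ≤ h) : |w (nm w χ (z, t)) - t| ≤ |t| / 8 := by
  have k := (convex_Icc (-h) h).norm_image_sub_le_of_norm_hasDerivWithin_le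
    (f := fun t => w (nm w χ (z, t)) - t)
    (f' := fun t => ⟪grad w (nm w χ (z, t)) - grad w (χ z), grad w (χ z)⟫) (C := 1 / 8)
    (fun t _ => by
      have := ((hw.differentiable (by simp) (nm w χ (z, t))).hasFDerivAt.comp_hasDerivAt t
        (((hasDerivAt_id t).smul_const (grad w (χ z))).const_add (χ z))).sub (hasDerivAt_id t)
      rw [inner_sub_left, inner_grad, real_inner_self_eq_norm_sq, h1 _ (C.mem z hz), one_pow]
      rw [one_smul] at this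
      exact this.hasDerivWithinAt)
    (fun t k => (norm_inner_le_norm (𝕜 := ℝ) _ _).trans (by
      rw [h1 _ (C.mem z hz), mul_one]; exact C.near z hz t (abs_le.2 k)))
    (x := 0) ⟨by linarith [C.h_pos], C.h_pos.le⟩ (abs_le.1 ht)
  have e : w (nm w χ (z, 0)) = 0 := by simpa [nm] using (h0 _).1 (C.mem z hz)
  simp only [e, sub_zero, Real.norm_eq_abs] at k
  linarith

lemma image_mem (C : NCh S w c O χ ρ h L) (hw : ContDiff ℝ ∞ w) (h0 : ∀ x, x ∈ S ↔ w x = 0)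
    (h1 : ∀ x ∈ S, ‖grad w x‖ = 1) : χ '' ball 0 ρ ∈ 𝓝[S] c := by
  have k : nm w χ '' (ball 0 ρ ×ˢ Icc (-h) h) ∈ 𝓝 c := C.nhds ▸ image_mem_map
    (prod_mem_nhds (ball_mem_nhds _ C.ρ_pos) (Icc_mem_nhds (neg_lt_zero.2 C.h_pos) C.h_pos))
  filter_upwards [nhdsWithin_le_nhds k, self_mem_nhdsWithin] with x ⟨⟨z, t⟩, k1, k2⟩ hx
  have := C.height hw h0 h1 (ball_subset_ball (by linarith [C.ρ_pos]) k1.1) (abs_le.2 k1.2)
  rw [k2, (h0 x).1 hx, zero_sub, abs_neg] at this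
  obtain rfl : t = 0 := abs_nonpos_iff.1 (by linarith)
  exact ⟨z, k1.1, by simpa [nm] using k2⟩

/-- short normal segments from points of `S` near `c` fill a neighbourhood of `c` -/
lemma fill (C : NCh S w c O χ ρ h L) {η k : ℝ} (hη : 0 < η) (hk : 0 < k) :
    ∀ᶠ y in 𝓝 c, ∃ p ∈ S ∩ ball c η, ∃ t, |t| ≤ k ∧ y = p + t • grad w p := by
  rw [← C.nhds, eventually_map]
  have e := C.smooth.continuous.continuousAt.eventually_mem (C.zero ▸ ball_mem_nhds c hη :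
    ball c η ∈ 𝓝 (χ 0))
  filter_upwards [prod_mem_nhds (inter_mem (ball_mem_nhds (0 : E2) (mul_pos two_pos C.ρ_pos)) e)
    (Icc_mem_nhds (neg_lt_zero.2 hk) hk)] with q hq
  exact ⟨χ q.1, ⟨C.mem _ hq.1.1, hq.1.2⟩, q.2, abs_le.2 hq.2, rfl⟩

/-- off the bad set the normal segments are transverse to `M` -/
lemma trans (C : NCh S w c O χ ρ h L) (hw : ContDiff ℝ ∞ w) (h0 : ∀ x, x ∈ S ↔ w x = 0)
    (h1 : ∀ x ∈ S, ‖grad w x‖ = 1) {z : E2} (hz : z ∈ ball (0 : E2) (2 * ρ)) {t : ℝ}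
    (ht : |t| ≤ h) {n : E3} (hn : ‖n‖ = 1) {δ : ℝ} (d1 : δ ≤ h / 2) (d2 : δ ≤ 1 / 2)
    (k1 : |w (nm w χ (z, t))| < δ)
    (k2 : (1 - δ) * ‖grad w (nm w χ (z, t))‖ < |⟪n, grad w (nm w χ (z, t))⟫|) :
    |t| < h ∧ 1 / 4 ≤ |⟪n, fderiv ℝ (nm w χ) (z, t) (0, 1)⟫| := by
  refine ⟨by linarith [C.height hw h0 h1 hz ht, abs_sub_abs_le_abs_sub t (w (nm w χ (z, t))),
    abs_sub_comm t (w (nm w χ (z, t))), C.h_pos], ?_⟩
  have a1 := C.near z hz t ht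
  have a2 := abs_real_inner_le_norm n (grad w (nm w χ (z, t)) - grad w (χ z))
  have a3 := norm_sub_norm_le (grad w (χ z)) (grad w (nm w χ (z, t)))
  rw [h1 _ (C.mem z hz), norm_sub_rev] at a3
  rw [hn, one_mul, inner_sub_right] at a2
  have a4 := abs_sub_abs_le_abs_sub ⟪n, grad w (nm w χ (z, t))⟫ ⟪n, grad w (χ z)⟫
  simp only [hasFDerivAt_nm hw C.smooth, map_zero, smul_zero, zero_add, one_smul]
  nlinarith

end NCh

end Vale.Agent.P218N.A
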