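import Vale.Agent.P218N.A.Lift
import Vale.Agent.P218N.A.Top
import Vale.Agent.P218N.B.HoleMass
import Vale.Agent.P218N.B.Limit1
import Vale.Agent.P218N.GB.Local

/-!
# P218N, block A: the rank bound passes to the limit
-/

open MeasureTheory Set Filter Topology Metric
open scoped ENNReal NNReal RealInnerProductSpace ContDiff

namespace Vale.Agent.P218N.A

open Vale.Agent.P218.H313 Vale.Agent.P218N.H Vale.Agent.P218N.B Vale.Agent.P218N.GB

lemma small (a : ℝ) {b : ℝ} (hb : 0 < b) : ∀ᶠ ε in 𝓝[>] (0 : ℝ), a * ε < b :=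
  nhdsWithin_le_nhds ((continuous_const_mul a).continuousAt.eventually_lt_const (by simpa))

theorem lower_mass {ι : Type} {U : Ultrafilter ι} {M : ι → Set E3} {κ : Measure E3} {Λ : ℝ}
    (hs : Seq U M κ Λ) {x : E3} {r : ℝ} (hr : 0 < r) (h : 0 < κ (ball x r)) :
    ∃ m : ℝ, 0 < m ∧ ∀ᶠ i in (U : Filter ι), ENNReal.ofReal m < mu (M i) (ball x r) := by
  have := hs.lf
  let f : ContDiffBump x := ⟨r / 2, r, half_pos hr, half_lt_self hr⟩
  have k : 0 < ∫ y, f y ∂κ := (integral_pos_iff_support_of_nonneg f.nonneg'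
    (f.continuous.integrable_of_hasCompactSupport f.hasCompactSupport)).2 (f.support_eq ▸ h)
  refine ⟨_, half_pos k, ?_⟩
  filter_upwards [(hs.lim f f.continuous f.hasCompactSupport).eventually_const_lt (half_lt_self k)]
    with i hi
  refine ((ENNReal.ofReal_lt_ofReal_iff_of_nonneg (half_pos k).le).2 hi).trans_le
    ((Real.ofReal_le_enorm _).trans ((enorm_integral_le_lintegral_enorm _).trans ?_))
  rw [← lintegral_indicator_one measurableSet_ball]
  refine lintegral_mono fun y => ?_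
  by_cases hy : y ∈ ball x r
  · rw [indicator_of_mem hy, Real.enorm_of_nonneg f.nonneg]
    exact ENNReal.ofReal_le_one.2 f.le_one
  · rw [Function.notMem_support.1 (f.support_eq ▸ hy : y ∉ Function.support f)]
    simp

/-- a level which misses small balls -/
theorem exists_level {w : E3 → ℝ} {K : ℝ≥0} {B : Set E3} (hw : LipschitzOnWith K w B)
    {s : Finset (E3 × ℝ)} (h1 : ∀ c ∈ s, 0 < c.2) {ε h : ℝ} (h2 : ∑ c ∈ s, √c.2 ≤ ε) (h3 : ε ≤ 1)
    (h4 : 2 * K * ε < h) : ∃ a ∈ Icc (2 * h) (3 * h), ∀ c ∈ s, ∀ x ∈ ball c.1 c.2 ∩ B, |w x| ≠ a := by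
  have e0 : 0 ≤ ε := (Finset.sum_nonneg fun _ _ => Real.sqrt_nonneg _).trans h2
  have : ¬ Icc (2 * h) (3 * h) ⊆ ⋃ c ∈ s, (fun x => |w x|) '' (ball c.1 c.2 ∩ B) := fun k => by
    have k1 := (measure_mono (μ := volume) k).trans ((measure_biUnion_finset_le _ _).trans
      (Finset.sum_le_sum (g := fun c => ENNReal.ofReal (2 * K * √c.2)) fun c hc =>
        (Real.volume_le_diam _).trans (ediam_le_of_forall_dist_le ?_)))
    · rw [← ENNReal.ofReal_sum_of_nonneg fun c _ => by positivity, ← Finset.mul_sum,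
        Real.volume_Icc, ENNReal.ofReal_le_ofReal_iff (by positivity)] at k1
      nlinarith [mul_le_mul_of_nonneg_left h2 (show (0 : ℝ) ≤ 2 * K by positivity)]
    · rintro _ ⟨x, hx, rfl⟩ _ ⟨y, hy, rfl⟩
      have a1 := (Finset.single_le_sum (f := fun c : E3 × ℝ => √c.2)
        (fun _ _ => Real.sqrt_nonneg _) hc).trans (h2.trans h3)
      have a2 : c.2 ≤ √c.2 := by nlinarith [Real.mul_self_sqrt (h1 c hc).le, Real.sqrt_nonneg c.2]
      have a3 : dist x y ≤ 2 * √c.2 := by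
        linarith [dist_triangle_right x y c.1, mem_ball.1 hx.1, mem_ball.1 hy.1]
      refine (abs_abs_sub_abs_le_abs_sub _ _).trans ((hw.dist_le_mul x hx.2 y hy.2).trans ?_)
      nlinarith [K.2, mul_le_mul_of_nonneg_left a3 K.2]
  obtain ⟨a, h5, h6⟩ := not_subset.1 this
  exact ⟨a, h5, fun c hc x hx e => h6 (mem_biUnion hc ⟨x, hx, e⟩)⟩

/-- the rank bound applied to maps which are cut off at a level missing `M` -/
theorem cut_map {M : Set E3} (hM : IsClosed M) {b : ℕ} (hb : RankC M b) {J : Type} [Fintype J]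
    (hJ : b < Fintype.card J) {v : J → E3 → UnitAddCircle} {w : E3 → ℝ} (hw : Continuous w)
    {R a : ℝ} (v0 : ∀ j x, R ≤ ‖x‖ → v j x = 0) (h1 : ∀ x ∈ M, ‖x‖ ≤ R → |w x| ≠ a)
    (h2 : ∀ x ∈ M, ‖x‖ ≤ R → |w x| < a → ∀ j, ContinuousAt (v j) x) :
    ∃ n : J → ℤ, n ≠ 0 ∧ ∃ W : E3 → ℝ, ContinuousOn W M ∧
      ∀ x ∈ M, |w x| < a → (W x : UnitAddCircle) = ∑ j, n j • v j x := by
  classical
  have c : ∀ j, ContinuousOn (fun x => if |w x| < a then v j x else 0) M := fun j x hx => by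
    refine ContinuousAt.continuousWithinAt ?_
    rcases lt_or_ge R ‖x‖ with r | r
    · refine (continuousAt_const (y := 0)).congr ?_
      filter_upwards [continuous_norm.continuousAt.eventually_const_lt r] with y hy
      simp [v0 j y hy.le]
    rcases (h1 x hx r).lt_or_gt with k | k
    · refine (h2 x hx r k j).congr ?_
      filter_upwards [hw.abs.continuousAt.eventually_lt_const k] with y hy using (if_pos hy).symm
    · refine (continuousAt_const (y := 0)).congr ?_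
      filter_upwards [hw.abs.continuousAt.eventually_const_lt k] with y hy
        using (if_neg hy.not_gt).symm
  obtain ⟨n, n0, W, hW⟩ := hb J (fun j => ⟨_, (c j).domRestrict⟩) (fun j =>
    HasCompactSupport.intro (hM.isClosedEmbedding_subtypeVal.isCompact_preimage
      (isCompact_closedBall 0 R)) fun x hx => by
        simp [v0 j x (not_le.1 (mt mem_closedBall_zero_iff.2 hx)).le]) hJ
  refine ⟨n, n0, fun x => if k : x ∈ M then W ⟨x, k⟩ else 0,
    continuousOn_iff_continuous_domRestrict.2 (W.continuous.congr fun x => by simp), fun x hx k => ?_⟩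
  simp [hx, hW, k]

/-- a point of `M` off the tubes over the holes -/
theorem exists_off {M O : Set E3} {C : Type*} (T : Finset C) (s : Finset (E3 × ℝ))
    {Z : C → E3 × ℝ → Set E3} {k : C → ℝ} (k0 : ∀ c, 0 ≤ k c) {ε m : ℝ} (h2 : ∑ c ∈ s, √c.2 ≤ ε)
    (hM : MeasurableSet M) (h3 : ∀ c ∈ T, ∀ β ∈ s, mu M (Z c β) ≤ ENNReal.ofReal (k c * √β.2))
    (h4 : (∑ c ∈ T, k c) * ε < m) (h5 : ENNReal.ofReal m < mu M O) :
    ∃ y ∈ M ∩ O, ∀ c ∈ T, ∀ β ∈ s, y ∉ Z c β := by
  by_contra! k1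
  have k2 : mu M O ≤ mu M (⋃ c ∈ T, ⋃ β ∈ s, Z c β) := by
    refine measure_mono_ae ?_
    filter_upwards [ae_restrict_mem hM] with y hy hy'
    obtain ⟨c, a1, β, a2, a3⟩ := k1 y ⟨hy, hy'⟩
    exact mem_biUnion a1 (mem_biUnion a2 a3)
  refine (h5.trans_le (k2.trans ((measure_biUnion_finset_le _ _).trans
    (Finset.sum_le_sum (g := fun c => ENNReal.ofReal (k c * ε)) fun c hc =>
      (measure_biUnion_finset_le _ _).trans ((Finset.sum_le_sum (h3 c hc)).trans ?_))))).not_ge ?_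
  · rw [← ENNReal.ofReal_sum_of_nonneg fun _ _ => mul_nonneg (k0 c) (Real.sqrt_nonneg _),
      ← Finset.mul_sum]
    exact ENNReal.ofReal_le_ofReal (mul_le_mul_of_nonneg_left h2 (k0 c))
  · rw [← ENNReal.ofReal_sum_of_nonneg fun c _ => mul_nonneg (k0 c)
      ((Finset.sum_nonneg fun _ _ => Real.sqrt_nonneg _).trans h2), ← Finset.sum_mul]
    exact ENNReal.ofReal_le_ofReal h4.le

theorem lf_ball (hcov : CovStmt) {ι : Type} {U : Ultrafilter ι} {M : ι → Set E3} {κ : Measure E3}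
    {Λ : ℝ} (hs : Seq U M κ Λ) {b : ℕ} (hb : ∀ᶠ i in (U : Filter ι), RankC (M i) b) {S : Set E3}
    {w : E3 → ℝ} (hw : ContDiff ℝ ∞ w) (h0 : ∀ x, x ∈ S ↔ w x = 0) (h1 : ∀ x ∈ S, ‖grad w x‖ = 1)
    (hκ : κ Sᶜ = 0) (pos : ∀ x ∈ S, ∀ r > 0, 0 < κ (ball x r)) {J : Type} [Fintype J]
    (hJ : b < Fintype.card J) {v : J → E3 → UnitAddCircle} {R : ℝ}
    (v0 : ∀ j x, R ≤ ‖x‖ → v j x = 0) (vc : ∀ j, ∀ x ∈ S, ∀ᶠ y in 𝓝 x, ContinuousAt (v j) y) :
    ∃ n : J → ℤ, n ≠ 0 ∧ Lf (fun x => ∑ j, n j • v j x) (S ∩ closedBall 0 R) := by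
  classical
  set A := S ∩ closedBall 0 R
  have hA : IsCompact A := (isCompact_closedBall 0 R).inter_left
    ((Set.ext h0 : S = {x | w x = 0}) ▸ isClosed_eq hw.continuous continuous_const)
  choose l hl using fun (c : A) j => local_lift (vc j c c.2.1)
  let B : A → Set E3 := fun c => {y | ∀ j, ContinuousAt (l c j) y ∧
    (l c j y : UnitAddCircle) = v j y ∧ |l c j y - l c j c| < 1 / 4} ∩ ball c 1
  choose χ ρ H L C using fun c : A => exists_nch hw h0 c.2.1 (h1 c c.2.1) (O := B c)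
    (inter_mem (eventually_all.2 (hl c)) (ball_mem_nhds _ one_pos))
  choose r r0 hr using fun c : A => Metric.mem_nhdsWithin_iff.1 ((C c).image_mem hw h0 h1)
  obtain ⟨T, hT⟩ := hA.elim_nhds_subcover' (fun c k => ball c (r ⟨c, k⟩ / 2))
    fun c k => ball_mem_nhds _ (half_pos (r0 _))
  obtain ⟨η, η1, η0⟩ := ((T.eventually_all.2 fun c _ => small 3 (half_pos (r0 c))).and
    self_mem_nhdsWithin).exists
  obtain ⟨T', hT'⟩ := hA.elim_nhds_subcover' (fun c _ => ball c η) fun c _ => ball_mem_nhds _ η0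
  obtain ⟨a₀, a0, a1⟩ := ((isCompact_closedBall (0 : E3) R).diff (isOpen_interior
    (s := {y | ∀ j, ContinuousAt (v j) y}))).exists_forall_le' hw.continuous.abs.continuousOn
    (a := 0) fun x hx => abs_pos.2 fun k => hx.2 (mem_interior_iff_mem_nhds.2
      (eventually_all.2 fun j => vc j x ((h0 x).2 k)))
  obtain ⟨h, ⟨g1, g2⟩, g0⟩ := (((T.eventually_all.2 fun c _ => small 1 (C c).h_pos).and
    (small 3 a0)).and self_mem_nhdsWithin).exists
  replace g0 : 0 < h := g0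
  replace η0 : 0 < η := η0
  have C' : ∀ c ∈ T, NCh S w c (B c) (χ c) (ρ c) h (L c) := fun c hc =>
    (C c).mono g0 (by linarith [g1 c hc])
  choose r' r0' hr' using fun c : A => Metric.eventually_nhds_iff_ball.1 ((C c).fill η0 g0)
  choose m m0 hm using fun c : A => lower_mass hs (r0' c) (pos c c.2.1 _ (r0' c))
  choose k r₀ k0 r1 hk using fun c : A => holeMassStmt Λ (L c) h hs.pos (C c).L_pos g0
  choose c₀ c0 hc₀ using fun c : A => top_join (C c).L_pos
  obtain ⟨K, hK⟩ := (contDiff_one' hw).contDiffOn.exists_lipschitzOnWith one_ne_zero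
    (convex_closedBall (0 : E3) R) (isCompact_closedBall 0 R)
  obtain ⟨ε, ⟨⟨e1, e2⟩, e3, e4⟩, e0⟩ := ((((T.eventually_all.2 fun c _ => (small 1 (c0 c)).and
    (small (√(2 * L c)) (r1 c))).and (T'.eventually_all.2 fun a _ =>
      small (∑ c ∈ T, k c * √(2 * L c)) (m0 a))).and ((small 1 one_pos).and (small (2 * K) g0))).and
    self_mem_nhdsWithin).exists
  obtain ⟨i, ⟨G, rk⟩, ⟨s, s1, s2, s3⟩, mass⟩ := ((hs.good.and hb).and ((hcov ι U M κ Λ hs w
    (contDiff_two hw) (fun x k k' => by simpa [k'] using h1 x ((h0 x).2 k))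
    (by simp only [ne_eq, ← h0]; exact hκ) (R + 1) (min (h / 2) (1 / 2)) ε
    (lt_min (half_pos g0) one_half_pos) e0).and (T'.eventually_all.2 fun a _ => hm a))).exists
  obtain ⟨a, ⟨b1, b2⟩, b3⟩ := exists_level hK s1 s2 (by linarith) e4
  obtain ⟨n, n0, W, W1, W2⟩ := cut_map G.closed rk hJ hw.continuous v0 (a := a)
    (fun x hx k e => by
      obtain ⟨c, k1, k2⟩ := mem_iUnion₂.1 (s3 ⟨hx, by linarith, Or.inl (min_le_of_left_le (by
        linarith))⟩)
      exact b3 c k1 x ⟨k2, mem_closedBall_zero_iff.2 k⟩ e)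
    fun x _ k k' => interior_subset (s := {y | ∀ j, ContinuousAt (v j) y}) (not_not.1 fun k'' => by
      linarith [a1 x ⟨mem_closedBall_zero_iff.2 k, k''⟩])
  choose! z hz using fun c (hc : c ∈ T) => hc₀ c (M i) (nm w (χ c)) (ρ c) h (L c) (1 / 4) s G.surf
    G.closed ((contDiff_nm hw (C c).smooth).of_le (by exact_mod_cast le_top)) (C c).ρ_pos
    (C c).L_pos.le (by norm_num) s1 (by linarith [(e1 c hc).1]) (C' c hc).anti (C' c hc).der fun y hy t ht k1 k2 => by
      have k3 := mt (fun k => s3 ⟨k1, by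
        linarith [mem_ball_iff_norm.1 ((C' c hc).sub y hy t ht).2, mem_closedBall_zero_iff.1 c.2.2,
          norm_le_norm_add_norm_sub' (nm w (χ c) (y, t)) c], k⟩) k2
      rw [not_or, not_le, not_le] at k3
      exact (C' c hc).trans hw h0 h1 hy ht (G.surf.norm_nu k1) (min_le_left _ _) (min_le_right _ _)
        k3.1 k3.2
  have net : ∀ x ∈ A, ∃ p ∈ ball x (2 * η) ∩ S, ∃ t,
      IsGreatest {t | |t| ≤ h ∧ p + t • grad w p ∈ M i} t ∧
      ∀ c ∈ T, ∀ y ∈ ball (0 : E2) (ρ c), χ c y = p → ∀ β ∈ s, √(2 * L c * β.2) ≤ ‖y - z c β‖ := by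
    intro x hx
    obtain ⟨a, k1, k2⟩ := mem_iUnion₂.1 (hT' hx)
    obtain ⟨y, ⟨y1, y2⟩, y3⟩ := exists_off T s (Z := fun c β => nm w (χ c) ''
      ((ball 0 (2 * ρ c) ∩ closedBall (z c β) √(2 * L c * β.2)) ×ˢ Icc (-h) h))
      (fun c => mul_nonneg (k0 c).le (Real.sqrt_nonneg _)) s2 G.surf.measurableSet
      (fun c hc β hβ => by
        have q0 : √(2 * L c * β.2) = √(2 * L c) * √β.2 :=
          Real.sqrt_mul (mul_pos two_pos (C c).L_pos).le _
        rw [mul_assoc (k c), ← q0]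
        refine hk c _ _ _ _ _ G (Real.sqrt_pos.2 (mul_pos (mul_pos two_pos (C c).L_pos) (s1 β hβ)))
          (q0 ▸ (mul_le_mul_of_nonneg_left ((Finset.single_le_sum (f := fun c : E3 × ℝ => √c.2)
            (fun _ _ => Real.sqrt_nonneg _) hβ).trans s2) (Real.sqrt_nonneg _)).trans (e1 c hc).2.le)
          (C' c hc).lip) (e2 a k1) (mass a k1)
    obtain ⟨p, ⟨p1, p2⟩, t, t1, rfl⟩ := hr' a y y2
    obtain ⟨t', t2⟩ := ((isCompact_Icc (a := -h) (b := h)).of_isClosed_subset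
      ((isClosed_le continuous_abs continuous_const).inter (G.closed.preimage
        (f := fun t : ℝ => p + t • grad w p) (by fun_prop))) fun t k => abs_le.1 k.1).exists_isGreatest
      ⟨t, t1, y1⟩
    refine ⟨p, ⟨?_, p1⟩, t', t2, fun c hc u hu e β hβ => (not_le.1 fun k3 => y3 c hc β hβ
      ⟨(u, t), ⟨⟨ball_subset_ball (by linarith [(C c).ρ_pos]) hu, mem_closedBall_iff_norm.2 k3⟩,
        abs_le.1 t1⟩, by simp [nm, e]⟩).le⟩
    exact mem_ball.2 (by linarith [mem_ball.1 p2, mem_ball.1 k2, dist_triangle_right p x a])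
  choose! p p1 t t1 t2 using net
  rcases A.eq_empty_or_nonempty with e | ne
  · exact ⟨n, n0, 0, continuousOn_const, by simp [e]⟩
  have := ne.to_subtype
  choose! c c1 c2 using fun x (hx : x ∈ A) => mem_iUnion₂.1 (hT hx)
  have D : ∀ x ∈ A, ∀ y ∈ ball x (3 * η) ∩ S, ∃ u ∈ ball (0 : E2) (ρ (c x)), χ (c x) u = y :=
    fun x hx y hy => hr (c x) ⟨mem_ball.2 (by
      linarith [mem_ball.1 hy.1, mem_ball.1 (c2 x hx), η1 _ (c1 x hx), dist_triangle y x (c x)]), hy.2⟩
  have up : ∀ c, ball (0 : E2) (ρ c) ⊆ ball 0 (2 * ρ c) := fun c =>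
    ball_subset_ball (by linarith [(C c).ρ_pos])
  have low : ∀ c ∈ T, ∀ u ∈ ball (0 : E2) (2 * ρ c), ∀ t, |t| ≤ h → |w (nm w (χ c) (u, t))| < a :=
    fun c hc u hu t ht => by
      linarith [(C' c hc).height hw h0 h1 hu ht, abs_sub_abs_le_abs_sub (w (nm w (χ c) (u, t))) t]
  have D' : ∀ x ∈ A, ∀ y ∈ A, y ∈ ball x η → ∃ u ∈ ball (0 : E2) (ρ (c x)), χ (c x) u = p y ∧
      p y + t y • grad w (p y) = nm w (χ (c x)) (u, t y) := fun x hx y hy k => by
    obtain ⟨u, k1, k2⟩ := D x hx (p y) ⟨mem_ball.2 (by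
      linarith [mem_ball.1 (p1 y hy).1, mem_ball.1 k, dist_triangle (p y) y x]), (p1 y hy).2⟩
    exact ⟨u, k1, k2, by simp [nm, k2]⟩
  refine ⟨n, n0, lf_glue (B := B) (l := l) (fun c j y hy => (hy.1 j).1.continuousWithinAt)
    (fun c j y hy => (hy.1 j).2.1) (fun c j y hy y' hy' => by
      linarith [(hy.1 j).2.2, (hy'.1 j).2.2, abs_sub_le (l c j y) (l c j c) (l c j y'),
        abs_sub_comm (l c j c) (l c j y')])
    (q := fun x => p x + t x • grad w (p x)) (W := fun x => W (p x + t x • grad w (p x))) (c := c)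
    (fun x hx => W2 _ (t1 x hx).1.2 ?_) fun x hx => ?_⟩
  · obtain ⟨u, k1, -, k2⟩ := D' x hx x hx (mem_ball_self η0)
    exact k2 ▸ low _ (c1 x hx) u (up _ k1) _ (t1 x hx).1.1
  filter_upwards [nhdsWithin_le_nhds (ball_mem_nhds x η0), self_mem_nhdsWithin] with y k hy
  obtain ⟨u, k1, k2, k3⟩ := D' x hx x hx (mem_ball_self η0)
  obtain ⟨u', k1', k2', k3'⟩ := D' x hx y hy k
  obtain ⟨u'', k4, k5⟩ := D x hx y ⟨ball_subset_ball (by linarith) k, hy.1⟩
  obtain ⟨P, P1, P2, P3, P4⟩ := hz _ (c1 x hx) u k1 u' k1' (t2 x hx _ (c1 x hx) u k1 k2)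
    (t2 y hy _ (c1 x hx) u' k1' k2') (t x) (t y) (by simpa only [nm, k2] using t1 x hx)
    (by simpa only [nm, k2'] using t1 y hy)
  have P5 : ∀ q ∈ P, q ∈ B (c x) ∧ |w q| < a := fun q hq => by
    obtain ⟨-, ⟨u, t⟩, k1, rfl⟩ := P2 hq
    exact ⟨(C' _ (c1 x hx)).sub u k1.1 t (abs_le.2 k1.2), low _ (c1 x hx) u k1.1 t (abs_le.2 k1.2)⟩
  rw [k3, k3']
  refine ⟨by simpa [nm, k5] using (C' _ (c1 x hx)).sub u'' (up _ k4) 0 (by simpa using g0.le),
    (P5 _ P4).1, int_const (g := fun q => W q - ∑ j, n j * l (c x) j q) P1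
      ((W1.mono fun q hq => (P2 hq).1).sub (continuousOn_finsetSum _ fun j _ => continuousOn_const.mul
        fun q hq => ((P5 q hq).1.1 j).1.continuousWithinAt)) (fun q hq => ?_) P4 P3⟩
  rw [AddCircle.coe_sub, W2 q (P2 hq).1 (P5 q hq).2, coe_sum, sub_eq_zero]
  exact Finset.sum_congr rfl fun j _ => by rw [((P5 q hq).1.1 j).2.1]

/-- **A8**: the rank bound passes to the limit surface -/
theorem rankC_limit (hcov : CovStmt) {ι : Type} {U : Ultrafilter ι} {M : ι → Set E3}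
    {κ : Measure E3} {Λ : ℝ} (hs : Seq U M κ Λ) {b : ℕ}
    (hb : ∀ᶠ i in (U : Filter ι), RankC (M i) b) {S : Set E3} (hS : Surf S) (hc : IsClosed S)
    (hκ : κ Sᶜ = 0) (pos : ∀ x ∈ S, ∀ r > 0, 0 < κ (ball x r)) : RankC S b := by
  obtain ⟨w, hw, h0, h1⟩ := hS.exists_global hc
  have := (toCS (M := S) (U := {x | grad w x ≠ 0})
    ⟨isOpen_ne_fun (contDiff_grad_top hw).continuous continuous_const, hw, fun _ k => k,
      fun x _ => h0 x⟩ fun x hx k => by simpa [k] using h1 x hx).locallyConnected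
  refine rankC_of_exhaust (A := fun n => {x : S | ‖(x : E3)‖ < n})
    (fun n => isOpen_lt (by fun_prop) continuous_const)
    (fun n m r x (hx : ‖(x : E3)‖ < n) => show ‖(x : E3)‖ < m from hx.trans_le (Nat.cast_le.2 r))
    (fun x => exists_nat_gt ‖(x : E3)‖)
    fun J _ u hu hJ R => ?_
  choose v R₀ v1 v2 v3 using fun j => circle_extend hc (u j) (hu j)
  obtain ⟨R₁, hR⟩ := (finite_range R₀).bddAbove
  obtain ⟨n, n0, W, W1, W2⟩ := lf_ball hcov hs hb hw h0 h1 hκ pos hJ (R := max R₁ R)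
    (fun j x k => v2 j x ((hR ⟨j, rfl⟩).trans ((le_max_left _ _).trans k))) v3
  have k : ∀ x ∈ {x : S | ‖(x : E3)‖ < R}, (x : E3) ∈ S ∩ closedBall 0 (max R₁ R) := fun x hx =>
    ⟨x.2, mem_closedBall_zero_iff.2 (le_max_of_le_right (le_of_lt hx))⟩
  exact ⟨n, n0, fun x => W x, W1.comp continuous_subtype_val.continuousOn k, fun x hx => by
    simp only [W2 x (k x hx), v1]⟩

lemma mu_ball_pos {S : Set E3} (hS : Surf S) {x : E3} (hx : x ∈ S) {r : ℝ} (hr : 0 < r) :
    0 < mu S (ball x r) := by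
  obtain ⟨f, u, ρ, h, -, C, u0, -⟩ := hS.exists_tchart finrank_E3 hx univ_mem
  refine (Lim.mu_gr_pos (f := f) (p := x) isOpen_ball (contDiff_one' C.smooth).contDiffOn
    (mem_ball_self C.r_pos) isOpen_ball (by simpa [Frame.gr, u0])).trans_le
    (Measure.restrict_mono (C.image ▸ inter_subset_left) le_rfl _)

/-- **A8** in the form given by `StructStmt` -/
theorem rankC_limit' (hcov : CovStmt) {ι : Type} {U : Ultrafilter ι} {M : ι → Set E3}
    {κ : Measure E3} {Λ : ℝ} (hs : Seq U M κ Λ) {b : ℕ}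
    (hb : ∀ᶠ i in (U : Filter ι), RankC (M i) b) {S : Set E3} (hS : Surf S) (hc : IsClosed S)
    {θ : E3 → ℕ} (h1 : ∀ x ∈ S, 1 ≤ θ x) (h2 : κ = (mu S).withDensity fun x => (θ x : ℝ≥0∞)) :
    RankC S b := by
  refine rankC_limit hcov hs hb hS hc (h2 ▸ withDensity_absolutelyContinuous _ _ (by
    simp [Measure.restrict_apply hc.measurableSet.compl])) fun x hx r hr =>
      (mu_ball_pos hS hx hr).trans_le ?_
  rw [h2, withDensity_apply _ measurableSet_ball, ← setLIntegral_one]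
  refine lintegral_mono_ae (ae_restrict_of_ae ?_)
  filter_upwards [ae_restrict_mem hc.measurableSet] with y hy using by exact_mod_cast h1 y hy

end Vale.Agent.P218N.A
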